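import Vale.Agent.Lib.P219.K.Geo.AssembleK
import Vale.Agent.Lib.P219.K.Coupling
import Vale.Agent.Lib.P219.K.DetRay

/-!
# P219, curvature `≤ -1`: from the metric to `HDataH`
-/

open scoped ContDiff
open Vale.Agent.Lib.P219 (Ev HData HDataK HDataH)

namespace Vale.Agent.Lib.P219

/-- the analytic interface from the geometric one -/
noncomputable def HDataK.toHDataH {n : ℕ} (H : HDataK n) (hn : 1 ≤ n) : HDataH n where
  toHData := H.toHData
  lt := H.lt
  lt_cont := H.lt_cont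
  lt_deriv := H.lt_deriv hn
  P_monoH := H.P_monoH
  couple := H.couple hn

end Vale.Agent.Lib.P219

namespace P219G

variable {n : ℕ}

theorem exists_HDataH (hn : 1 ≤ n) (g : Ev n → Ev n →L[ℝ] Ev n →L[ℝ] ℝ) (hg : IsMetric g)
    (Γ : Ev n → Ev n →L[ℝ] Ev n →L[ℝ] Ev n) (hΓ : IsLeviCivita g Γ) (hc : IsComplete Γ)
    (hK : ∀ p, ∀ u v : Ev n, LinearIndependent ℝ ![u, v] → sectionalCurvature g Γ p u v ≤ -1) :
    ∃ H : HDataH n, ∀ x v w, g x v w = inner ℝ (H.Li x v) (H.Li x w) := by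
  obtain ⟨H, h⟩ := exists_HDataK g hg Γ hΓ hc hK
  exact ⟨H.toHDataH hn, h⟩

end P219G
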