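import Vale.Agent.Lib.P219.Geo.JacA
import Vale.Agent.Lib.P219.Geo.FlowD

/-!
# P219: parallel transport along geodesics
-/

open scoped ContDiff
open Vale.Agent.Lib.P219 (Ev)

namespace P219G

variable {n : ℕ} {g : Ev n → Ev n →L[ℝ] Ev n →L[ℝ] ℝ}
  {Γ : Ev n → Ev n →L[ℝ] Ev n →L[ℝ] Ev n} {Ψ : ℝ → Ev n × Ev n → Ev n × Ev n}

/-- `exists_linear_flow` (Geo/FlowB) with `A t u = -Γ(γ t)(γ' t, u)` (continuous); the `g`-inner product
of two parallel fields is constant (`hasDerivAt_inner` with `X1 = Y1 = 0`), and `γ'` is parallel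
(`flow_acc`), so `T t z.2 - γ' t` is parallel with `g`-norm `0` at `t = 0`. -/
theorem exists_parallel (hg : IsMetric g) (hΓ : IsLeviCivita g Γ) (h : IsFlow (spray Γ) Ψ)
    (z : Ev n × Ev n) : ∃ T : ℝ → Ev n →L[ℝ] Ev n, (∀ u, T 0 u = u) ∧
      (∀ t u, HasDerivAt (fun s => T s u) (-(Γ (Ψ t z).1 (Ψ t z).2 (T t u))) t) ∧
      (∀ t u v, g (Ψ t z).1 (T t u) (T t v) = g z.1 u v) ∧ (∀ t, T t z.2 = (Ψ t z).2) := by
  have hcont : Continuous fun t : ℝ => -(Γ (Ψ t z).1 (Ψ t z).2) := by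
    have h1 : Continuous fun t : ℝ => (Ψ t z).1 :=
      continuous_iff_continuousAt.2 fun t => (flow_vel h t z).continuousAt
    have h2 : Continuous fun t : ℝ => (Ψ t z).2 :=
      continuous_iff_continuousAt.2 fun t => (flow_acc h t z).continuousAt
    exact ((hΓ.smooth.continuous.comp h1).clm_apply h2).neg
  obtain ⟨W, hW0, hW⟩ := exists_linear_flow (fun t : ℝ => -(Γ (Ψ t z).1 (Ψ t z).2)) hcont
  have hder : ∀ t u, HasDerivAt (fun s => W s u) (-(Γ (Ψ t z).1 (Ψ t z).2 (W t u))) t := by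
    intro t u
    have h1 := (hW t).clm_apply (hasDerivAt_const t u)
    refine h1.congr_deriv ?_
    simp
  have hzero : ∀ t, ∀ X : Ev n, -(Γ (Ψ t z).1 (Ψ t z).2 X)
      = 0 - Γ (Ψ t z).1 (Ψ t z).2 X := by
    intro t X
    rw [zero_sub]
  have hin : ∀ X Y : ℝ → Ev n,
      (∀ t, HasDerivAt X (-(Γ (Ψ t z).1 (Ψ t z).2 (X t))) t) →
      (∀ t, HasDerivAt Y (-(Γ (Ψ t z).1 (Ψ t z).2 (Y t))) t) →
      ∀ t, g (Ψ t z).1 (X t) (Y t) = g z.1 (X 0) (Y 0) := by
    intro X Y hX hY t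
    have key : ∀ t, HasDerivAt (fun s => g (Ψ s z).1 (X s) (Y s)) 0 t := by
      intro t
      have h1 := hasDerivAt_inner hg hΓ h z X Y 0 0 t ((hX t).congr_deriv (hzero t _))
        ((hY t).congr_deriv (hzero t _))
      refine h1.congr_deriv ?_
      simp
    have hconst := is_const_of_deriv_eq_zero (𝕜 := ℝ)
      (f := fun s => g (Ψ s z).1 (X s) (Y s))
      (fun s => (key s).differentiableAt) (fun s => (key s).deriv) t 0
    simpa only [h.zero] using hconst
  refine ⟨W, fun u => by rw [hW0]; rfl, hder, ?_, ?_⟩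
  · intro t u v
    have h1 := hin (fun s => W s u) (fun s => W s v) (fun t => hder t u) (fun t => hder t v) t
    simpa [hW0] using h1
  · intro t
    set D : ℝ → Ev n := fun s => W s z.2 - (Ψ s z).2 with hD
    have hDd : ∀ t, HasDerivAt D (-(Γ (Ψ t z).1 (Ψ t z).2 (D t))) t := by
      intro t
      have h1 := (hder t z.2).sub (flow_acc h t z)
      refine HasDerivAt.congr_deriv (f := D) h1 ?_
      simp only [hD, map_sub]
      abel
    have h2 := hin D D hDd hDd t
    have h3 : D 0 = 0 := by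
      simp only [hD, hW0, h.zero]
      simp
    rw [h3] at h2
    have h4 : D t = 0 := by
      by_contra hne
      have := hg.pos (Ψ t z).1 (D t) hne
      rw [h2] at this
      simp at this
    exact sub_eq_zero.1 h4

end P219G
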