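import Vale.Agent.Lib.P219.Geo.Symm
import Vale.Agent.Lib.P219.Geo.Convex

/-!
# P219: the covariant derivative of the Jacobi fields at time one
-/

open scoped ContDiff
open Vale.Agent.Lib.P219 (Ev)

namespace P219G

variable {n : ℕ} {g : Ev n → Ev n →L[ℝ] Ev n →L[ℝ] ℝ}
  {Γ : Ev n → Ev n →L[ℝ] Ev n →L[ℝ] Ev n} {Ψ : ℝ → Ev n × Ev n → Ev n × Ev n}

/-- `Qf x v b = DJ(1)` for the Jacobi field with `J 0 = 0`, `DJ 0 = b` -/
noncomputable def Qf (Γ : Ev n → Ev n →L[ℝ] Ev n →L[ℝ] Ev n)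
    (Ψ : ℝ → Ev n × Ev n → Ev n × Ev n) (x v : Ev n) : Ev n →L[ℝ] Ev n :=
  ((ContinuousLinearMap.snd ℝ (Ev n) (Ev n)).comp (fderiv ℝ (Ψ 1) (x, v))
    + (Γ (Ψ 1 (x, v)).1 (Ψ 1 (x, v)).2).comp
      ((ContinuousLinearMap.fst ℝ (Ev n) (Ev n)).comp (fderiv ℝ (Ψ 1) (x, v)))).comp
    (ContinuousLinearMap.inr ℝ (Ev n) (Ev n))

theorem Qf_apply (x v b : Ev n) : Qf Γ Ψ x v b = DJf Γ Ψ (x, v) (0, b) 1 := rfl

private theorem QMap_contDiff_flow (hΓ : IsLeviCivita g Γ) (h : IsFlow (spray Γ) Ψ) (t : ℝ) :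
    ContDiff ℝ ∞ (Ψ t) := by
  have h1 : ContDiff ℝ ∞ (fun p : ℝ × (Ev n × Ev n) => Ψ p.1 p.2) :=
    IsFlow.contDiff (spray_contDiff hΓ.smooth) h
  have h2 : ContDiff ℝ ∞ (fun p : Ev n × Ev n => ((t : ℝ), p)) :=
    contDiff_const.prodMk contDiff_id
  exact h1.comp h2

private theorem QMap_hasFDerivAt_flow (hΓ : IsLeviCivita g Γ) (h : IsFlow (spray Γ) Ψ) (t : ℝ)
    (z : Ev n × Ev n) : HasFDerivAt (Ψ t) (fderiv ℝ (Ψ t) z) z :=
  ((QMap_contDiff_flow hΓ h t).differentiable (by simp) z).hasFDerivAt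

/-- joint continuity: the flow is smooth (`IsFlow.contDiff`) -/
theorem Qf_cont (hΓ : IsLeviCivita g Γ) (h : IsFlow (spray Γ) Ψ) :
    Continuous (fun p : Ev n × Ev n => Qf Γ Ψ p.1 p.2) := by
  have h1 := QMap_contDiff_flow hΓ h 1
  have h2 : Continuous (fun p : Ev n × Ev n => fderiv ℝ (Ψ 1) p) :=
    h1.continuous_fderiv (by simp)
  have h3 : Continuous (Ψ 1) := h1.continuous
  have h4 : Continuous (fun p : Ev n × Ev n => Γ (Ψ 1 p).1 (Ψ 1 p).2) :=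
    (hΓ.smooth.continuous.comp h3.fst).clm_apply h3.snd
  have h5 : Continuous (fun p : Ev n × Ev n =>
      (ContinuousLinearMap.fst ℝ (Ev n) (Ev n)).comp (fderiv ℝ (Ψ 1) p)) :=
    continuous_const.clm_comp h2
  have h6 : Continuous (fun p : Ev n × Ev n =>
      (ContinuousLinearMap.snd ℝ (Ev n) (Ev n)).comp (fderiv ℝ (Ψ 1) p)) :=
    continuous_const.clm_comp h2
  exact (h6.add (h4.clm_comp h5)).clm_comp continuous_const

private theorem QMap_Jf_one (hΓ : IsLeviCivita g Γ) (h : IsFlow (spray Γ) Ψ) (x v b : Ev n) :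
    Jf Ψ (x, v) (0, b) 1 = Dex Ψ x v b := by
  rw [Jf_eq hΓ h, one_smul, one_smul]

/-- homogeneity: `K(t) = J(s t)/s` is the field for `(x, s v)` (`Jf_eq`, `hasDerivAt_Jf`,
`flow_smul`; the derivative of `K` at `1` is `J'(s)`, and the position and velocity at time `1`
for `(x, s v)` are `(Ψ s (x,v)).1`, `s (Ψ s (x,v)).2`). -/
theorem Qf_smul (hΓ : IsLeviCivita g Γ) (h : IsFlow (spray Γ) Ψ) (x v b : Ev n) {s : ℝ}
    (hs : 0 < s) : Qf Γ Ψ x (s • v) b = DJf Γ Ψ (x, v) (0, b) s := by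
  rw [Qf_apply]
  have hflow : ∀ w : Ev n, Ψ 1 (x, s • w) = ((Ψ s (x, w)).1, s • (Ψ s (x, w)).2) := by
    intro w
    have := flow_smul hΓ.smooth h 1 s x w
    rwa [mul_one] at this
  -- the derivative of the second component
  have hin : HasDerivAt (fun r : ℝ => ((x, v + r • b) : Ev n × Ev n)) (0, b) 0 := by
    have h1 : HasDerivAt (fun r : ℝ => v + r • b) b 0 := by
      have := ((hasDerivAt_id (0 : ℝ)).smul_const b).const_add v
      simpa using this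
    exact (hasDerivAt_const (0 : ℝ) x).prodMk h1
  have hin2 : HasDerivAt (fun r : ℝ => ((x, s • (v + r • b)) : Ev n × Ev n)) (0, s • b) 0 := by
    have h0 : HasDerivAt (fun r : ℝ => v + r • b) b 0 := by
      have := ((hasDerivAt_id (0 : ℝ)).smul_const b).const_add v
      simpa using this
    have h1 : HasDerivAt (fun r : ℝ => s • (v + r • b)) (s • b) 0 := h0.const_smul s
    exact (hasDerivAt_const (0 : ℝ) x).prodMk h1
  have hd1 : HasFDerivAt (Ψ s) (fderiv ℝ (Ψ s) (x, v)) (x, v + (0 : ℝ) • b) := by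
    have : ((x, v + (0 : ℝ) • b) : Ev n × Ev n) = (x, v) := by simp
    rw [this]
    exact QMap_hasFDerivAt_flow hΓ h s (x, v)
  have hd2 : HasFDerivAt (Ψ 1) (fderiv ℝ (Ψ 1) (x, s • v)) (x, s • (v + (0 : ℝ) • b)) := by
    have : ((x, s • (v + (0 : ℝ) • b)) : Ev n × Ev n) = (x, s • v) := by simp
    rw [this]
    exact QMap_hasFDerivAt_flow hΓ h 1 (x, s • v)
  have e1 : HasDerivAt (fun r : ℝ => Ψ s (x, v + r • b)) (fderiv ℝ (Ψ s) (x, v) (0, b)) 0 :=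
    HasFDerivAt.comp_hasDerivAt (0 : ℝ) hd1 hin
  have e2 : HasDerivAt (fun r : ℝ => Ψ 1 (x, s • (v + r • b)))
      (fderiv ℝ (Ψ 1) (x, s • v) (0, s • b)) 0 :=
    HasFDerivAt.comp_hasDerivAt (0 : ℝ) hd2 hin2
  have e1s : HasDerivAt (fun r : ℝ => (Ψ s (x, v + r • b)).2)
      (fderiv ℝ (Ψ s) (x, v) (0, b)).2 0 := e1.snd
  have e3 : HasDerivAt (fun r : ℝ => s • (Ψ s (x, v + r • b)).2)
      (s • (fderiv ℝ (Ψ s) (x, v) (0, b)).2) 0 := e1s.const_smul s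
  have e4 : HasDerivAt (fun r : ℝ => (Ψ 1 (x, s • (v + r • b))).2)
      (fderiv ℝ (Ψ 1) (x, s • v) (0, s • b)).2 0 := e2.snd
  have e5 : (fun r : ℝ => (Ψ 1 (x, s • (v + r • b))).2) =
      fun r : ℝ => s • (Ψ s (x, v + r • b)).2 := by
    funext r
    rw [hflow]
  rw [e5] at e4
  have e6 := e4.unique e3
  have e7 : fderiv ℝ (Ψ 1) (x, s • v) (0, s • b) = s • fderiv ℝ (Ψ 1) (x, s • v) (0, b) := by
    rw [← map_smul]
    simp
  rw [e7, Prod.smul_snd] at e6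
  have e8 : (fderiv ℝ (Ψ 1) (x, s • v) (0, b)).2 = (fderiv ℝ (Ψ s) (x, v) (0, b)).2 :=
    smul_right_injective (Ev n) hs.ne' e6
  have e9 : Jf Ψ (x, v) (0, b) s = s • Jf Ψ (x, s • v) (0, b) 1 := by
    rw [Jf_eq hΓ h x v b s, QMap_Jf_one hΓ h]
  unfold DJf
  rw [e8, e9, hflow]
  simp only [map_smul, smul_apply]

/-- `J(t) = t γ'(t)`, `DJ = γ'` (`flow_acc`) -/
theorem Qf_self (hΓ : IsLeviCivita g Γ) (h : IsFlow (spray Γ) Ψ) (x v : Ev n) :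
    Qf Γ Ψ x v v = ve Ψ x v := by
  rw [Qf_apply]
  have hin : HasDerivAt (fun r : ℝ => ((x, r • v) : Ev n × Ev n)) (0, v) 1 := by
    have h1 : HasDerivAt (fun r : ℝ => r • v) v 1 := by
      have := (hasDerivAt_id (1 : ℝ)).smul_const v
      simpa using this
    exact (hasDerivAt_const (1 : ℝ) x).prodMk h1
  have hd1 : HasFDerivAt (Ψ 1) (fderiv ℝ (Ψ 1) (x, v)) (x, (1 : ℝ) • v) := by
    rw [one_smul]
    exact QMap_hasFDerivAt_flow hΓ h 1 (x, v)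
  have e1 : HasDerivAt (fun r : ℝ => Ψ 1 (x, r • v)) (fderiv ℝ (Ψ 1) (x, v) (0, v)) 1 :=
    HasFDerivAt.comp_hasDerivAt (1 : ℝ) hd1 hin
  have e2 : (fun r : ℝ => Ψ 1 (x, r • v)) = fun r : ℝ => ((Ψ r (x, v)).1, r • (Ψ r (x, v)).2) := by
    funext r
    have := flow_smul hΓ.smooth h 1 r x v
    rwa [mul_one] at this
  rw [e2] at e1
  have e3 : HasDerivAt (fun r : ℝ => ((Ψ r (x, v)).1, r • (Ψ r (x, v)).2))
      ((Ψ 1 (x, v)).2, (1 : ℝ) • (-(Γ (Ψ 1 (x, v)).1 (Ψ 1 (x, v)).2 (Ψ 1 (x, v)).2))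
        + (1 : ℝ) • (Ψ 1 (x, v)).2) 1 :=
    (flow_vel h 1 (x, v)).prodMk ((hasDerivAt_id (1 : ℝ)).smul (flow_acc h 1 (x, v)))
  have e4 := e1.unique e3
  unfold DJf Jf
  rw [e4]
  simp only [one_smul]
  unfold ve
  abel

/-- the derivative of the gradient of the squared distance -/
private theorem QMap_grad (hg : IsMetric g) (hΓ : IsLeviCivita g Γ) (hK : IsNonpos g Γ)
    (h : IsFlow (spray Γ) Ψ) (x v ξ : Ev n) :
    fderiv ℝ (fun y => lg Ψ y x) (ex Ψ x v) (Dex Ψ x v ξ) =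
      -((fderiv ℝ (Ψ 1) (x, v) (0, ξ)).2) := by
  have hL : HasFDerivAt (fun y => lg Ψ y x) (fderiv ℝ (fun y => lg Ψ y x) (ex Ψ x v))
      (ex Ψ x v) := by
    have h1 : ContDiff ℝ ∞ (fun y : Ev n => lg Ψ y x) :=
      (lg_contDiff hg hΓ hK h).comp (contDiff_id.prodMk contDiff_const)
    exact (h1.differentiable (by simp) _).hasFDerivAt
  have hin : HasFDerivAt (fun w : Ev n => ((x, w) : Ev n × Ev n))
      (ContinuousLinearMap.inr ℝ (Ev n) (Ev n)) v := hasFDerivAt_prodMk_right x v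
  have hΨ : HasFDerivAt (fun w : Ev n => Ψ 1 (x, w))
      ((fderiv ℝ (Ψ 1) (x, v)).comp (ContinuousLinearMap.inr ℝ (Ev n) (Ev n))) v :=
    (QMap_hasFDerivAt_flow hΓ h 1 (x, v)).comp v hin
  have hex : HasFDerivAt (fun w : Ev n => ex Ψ x w) (Dex Ψ x v) v :=
    (hΨ.fst.differentiableAt).hasFDerivAt
  have h1 : HasFDerivAt (fun w : Ev n => lg Ψ (ex Ψ x w) x)
      ((fderiv ℝ (fun y => lg Ψ y x) (ex Ψ x v)).comp (Dex Ψ x v)) v := hL.comp v hex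
  have h2 : (fun w : Ev n => lg Ψ (ex Ψ x w) x) = fun w => -((Ψ 1 (x, w)).2) := by
    funext w
    have h3 := ve_lg hg hΓ hK h x (ex Ψ x w)
    rw [lg_ex hg hΓ hK h x w] at h3
    show _ = -(ve Ψ x w)
    rw [h3, neg_neg]
  rw [h2] at h1
  have h4 := congrArg (fun L : Ev n →L[ℝ] Ev n => L ξ) (h1.unique hΨ.snd.neg)
  simpa using h4

/-- Symmetry (Wronskian).  Let `G y = ve x (lg x y)` be half the gradient of the squared distance
`f y = g x (lg x y) (lg x y)`: `D f(y) ζ = 2 g y (G y) ζ` (`hasFDerivAt_hd` in Geo/Symm).  The covariant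
derivative `D G(y) η + Γ y η (G y)` is `Qf x v ξ` if `η = Dex x v ξ`, `v = lg x y` (chain rule,
`Dex_fderiv_lg`).  Differentiating `D f` once more, `D² f(y)(η, ζ) = 2 g(∇_η G, ζ) + 2 g(G, Γ(η, ζ))`
(`hΓ.metric`), and `D² f` is symmetric (`second_derivative_symmetric`, `f` is smooth by
`lg_contDiff`). -/
theorem Qf_symm (hg : IsMetric g) (hΓ : IsLeviCivita g Γ) (hK : IsNonpos g Γ)
    (h : IsFlow (spray Γ) Ψ) (x v ξ ζ : Ev n) :
    g (ex Ψ x v) (Qf Γ Ψ x v ξ) (Dex Ψ x v ζ) = g (ex Ψ x v) (Dex Ψ x v ξ) (Qf Γ Ψ x v ζ) := by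
  set y := ex Ψ x v with hy
  have hLd : HasFDerivAt (fun y => lg Ψ y x) (fderiv ℝ (fun y => lg Ψ y x) y) y := by
    have h1 : ContDiff ℝ ∞ (fun y : Ev n => lg Ψ y x) :=
      (lg_contDiff hg hΓ hK h).comp (contDiff_id.prodMk contDiff_const)
    exact (h1.differentiable (by simp) _).hasFDerivAt
  have hgd : HasFDerivAt g (fderiv ℝ g y) y :=
    (hg.smooth.differentiable (by simp) y).hasFDerivAt
  have hsec := (hgd.clm_apply hLd).neg
  have hsymm := second_derivative_symmetric (f := fun y' => hd g Ψ x y')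
    (f' := fun y' => -(g y' (lg Ψ y' x))) (fun y' => hasFDerivAt_hd hg hΓ hK h x y') hsec
    (Dex Ψ x v ξ) (Dex Ψ x v ζ)
  have hL : lg Ψ y x = -(ve Ψ x v) := by
    have h3 := ve_lg hg hΓ hK h x y
    rw [hy, lg_ex hg hΓ hK h x v] at h3
    rw [hy, h3, neg_neg]
  have e1 := hΓ.metric y (Dex Ψ x v ξ) (lg Ψ y x) (Dex Ψ x v ζ)
  have e2 := hΓ.metric y (Dex Ψ x v ζ) (lg Ψ y x) (Dex Ψ x v ξ)
  have g1 := QMap_grad hg hΓ hK h x v ξ
  have g2 := QMap_grad hg hΓ hK h x v ζ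
  rw [← hy] at g1 g2
  have q : ∀ b : Ev n, Qf Γ Ψ x v b = (fderiv ℝ (Ψ 1) (x, v) (0, b)).2 +
      Γ y (ve Ψ x v) (Dex Ψ x v b) := by
    intro b
    rw [Qf_apply]
    unfold DJf
    rw [QMap_Jf_one hΓ h]
    rfl
  simp only [ContinuousLinearMap.comp_apply, ContinuousLinearMap.flip_apply, neg_apply,
    add_apply] at hsymm
  rw [g1, g2, e1, e2, hΓ.torsion_free y (Dex Ψ x v ζ) (Dex Ψ x v ξ), hL] at hsymm
  simp only [map_neg, neg_apply] at hsymm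
  rw [q ξ, q ζ, hg.symm y (Dex Ψ x v ξ), hΓ.torsion_free y (ve Ψ x v) (Dex Ψ x v ξ),
    hΓ.torsion_free y (ve Ψ x v) (Dex Ψ x v ζ)]
  simp only [map_add, add_apply]
  linarith

/-- Derivative of the Gram form: `s² φ(s) = g(J_ξ, J_ζ)(s)` with `φ` the function below (`Jf_eq`),
`(s² φ)' = g(DJ_ξ, J_ζ) + g(J_ξ, DJ_ζ)` (`hasDerivAt_inner`), `DJ(s) = Qf x (s v) ·` (`Qf_smul`) and
`Qf_symm`. -/
theorem Dex_deriv (hg : IsMetric g) (hΓ : IsLeviCivita g Γ) (hK : IsNonpos g Γ)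
    (h : IsFlow (spray Γ) Ψ) (x v ξ ζ : Ev n) (s : ℝ) (hs : 0 < s) :
    HasDerivAt (fun s => g (ex Ψ x (s • v)) (Dex Ψ x (s • v) ξ) (Dex Ψ x (s • v) ζ))
      ((2 / s) * (g (ex Ψ x (s • v)) (Qf Γ Ψ x (s • v) ξ) (Dex Ψ x (s • v) ζ)
        - g (ex Ψ x (s • v)) (Dex Ψ x (s • v) ξ) (Dex Ψ x (s • v) ζ))) s := by
  have hJ' : ∀ b : Ev n, HasDerivAt (Jf Ψ (x, v) (0, b))
      (DJf Γ Ψ (x, v) (0, b) s - Γ (Ψ s (x, v)).1 (Ψ s (x, v)).2 (Jf Ψ (x, v) (0, b) s)) s := by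
    intro b
    have h1 := hasDerivAt_Jf hΓ h (x, v) (0, b) s
    have h2 : DJf Γ Ψ (x, v) (0, b) s - Γ (Ψ s (x, v)).1 (Ψ s (x, v)).2 (Jf Ψ (x, v) (0, b) s)
        = (fderiv ℝ (Ψ s) (x, v) (0, b)).2 := by
      unfold DJf
      abel
    rw [h2]
    exact h1
  have hin := hasDerivAt_inner hg hΓ h (x, v) (Jf Ψ (x, v) (0, ξ)) (Jf Ψ (x, v) (0, ζ)) _ _ s
    (hJ' ξ) (hJ' ζ)
  have hpos : ∀ r : ℝ, (Ψ r (x, v)).1 = ex Ψ x (r • v) := by
    intro r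
    unfold ex
    rw [flow_smul hΓ.smooth h, mul_one]
  have hsq : HasDerivAt (fun r : ℝ => (r ^ 2)⁻¹) (-(2 * s) / (s ^ 2) ^ 2) s := by
    have h1 : HasDerivAt (fun r : ℝ => r ^ 2) (2 * s) s := by
      simpa using hasDerivAt_pow 2 s
    exact h1.inv (by positivity)
  have hprod := hsq.mul hin
  have hev : (fun r => g (ex Ψ x (r • v)) (Dex Ψ x (r • v) ξ) (Dex Ψ x (r • v) ζ)) =ᶠ[nhds s]
      ((fun r : ℝ => (r ^ 2)⁻¹) * fun r =>
        g (Ψ r (x, v)).1 (Jf Ψ (x, v) (0, ξ) r) (Jf Ψ (x, v) (0, ζ) r)) := by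
    filter_upwards [lt_mem_nhds hs] with r hr
    simp only [Pi.mul_apply, Jf_eq hΓ h, hpos, map_smul, smul_apply, smul_eq_mul]
    field_simp
  refine (hprod.congr_of_eventuallyEq hev).congr_deriv ?_
  rw [← Qf_smul hΓ h x v ξ hs, ← Qf_smul hΓ h x v ζ hs]
  simp only [Jf_eq hΓ h, hpos, map_smul, smul_apply, smul_eq_mul]
  rw [← Qf_symm hg hΓ hK h x (s • v) ξ ζ]
  field_simp
  ring

end P219G
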