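import Vale.Agent.Lib.P219.Geo.Symm

/-!
# P219, curvature `≤ -1`: the curvature condition
-/

open scoped ContDiff
open Vale.Agent.Lib.P219 (Ev)

namespace P219G

variable {n : ℕ} {g : Ev n → Ev n →L[ℝ] Ev n →L[ℝ] ℝ}
  {Γ : Ev n → Ev n →L[ℝ] Ev n →L[ℝ] Ev n} {Ψ : ℝ → Ev n × Ev n → Ev n × Ev n}

/-- sectional curvature at most `-1` -/
def IsSecLe (g : Ev n → Ev n →L[ℝ] Ev n →L[ℝ] ℝ)
    (Γ : Ev n → Ev n →L[ℝ] Ev n →L[ℝ] Ev n) : Prop :=
  ∀ p, ∀ u v : Ev n, LinearIndependent ℝ ![u, v] → sectionalCurvature g Γ p u v ≤ -1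

theorem IsSecLe.nonpos (hK : IsSecLe g Γ) : IsNonpos g Γ :=
  fun p u v h => (hK p u v h).trans (by norm_num)

private theorem metric_expand (hg : IsMetric g) (p u v : Ev n) (a b : ℝ) :
    g p (a • u - b • v) (a • u - b • v)
      = a ^ 2 * g p u u - 2 * a * b * g p u v + b ^ 2 * g p v v := by
  have hs := hg.symm p v u
  simp only [map_sub, map_smul, sub_apply, smul_apply,
    smul_eq_mul, hs]
  ring

private theorem metric_key (hg : IsMetric g) (p u v : Ev n) :
    g p (g p v v • u - g p u v • v) (g p v v • u - g p u v • v)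
      = g p v v * (g p u u * g p v v - g p u v ^ 2) := by
  rw [metric_expand hg]
  ring

/-- as `curv_nonpos` (Geo/JacB): for dependent `u, v` both sides vanish. -/
theorem curv_le (hg : IsMetric g) (hΓ : IsLeviCivita g Γ) (hK : IsSecLe g Γ) (p u v : Ev n) :
    g p (curvatureTensor Γ p u v v) u ≤ -(g p u u * g p v v - g p u v ^ 2) := by
  rcases eq_or_ne v 0 with rfl | hv
  · simp [curvatureTensor]
  by_cases hli : LinearIndependent ℝ ![u, v]
  · have h1 := hK p u v hli
    unfold sectionalCurvature at h1
    have hvv := hg.pos p v hv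
    have hw : g p v v • u - g p u v • v ≠ 0 := by
      intro h0
      have h2 := LinearIndependent.pair_iff.1 hli (g p v v) (-(g p u v)) (by
        rw [neg_smul, ← sub_eq_add_neg]
        exact h0)
      exact hvv.ne' h2.1
    have h3 := hg.pos p _ hw
    rw [metric_key hg] at h3
    have h4 : 0 < g p u u * g p v v - g p u v ^ 2 := pos_of_mul_pos_right h3 hvv.le
    rw [div_le_iff₀ h4] at h1
    linarith
  · have : ∃ c : ℝ, u = c • v := by
      by_contra hcon
      push Not at hcon
      apply hli
      rw [LinearIndependent.pair_iff]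
      intro s t hst
      by_cases hs : s = 0
      · subst hs
        refine ⟨rfl, ?_⟩
        rw [zero_smul, zero_add] at hst
        rcases smul_eq_zero.1 hst with h | h
        · exact h
        · exact absurd h hv
      · exfalso
        apply hcon (-(s⁻¹ * t))
        have h5 : s • u = -(t • v) := eq_neg_of_add_eq_zero_left hst
        calc u = s⁻¹ • (s • u) := by rw [smul_smul, inv_mul_cancel₀ hs, one_smul]
          _ = -(s⁻¹ * t) • v := by rw [h5, smul_neg, smul_smul, neg_smul]
    obtain ⟨c, rfl⟩ := this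
    have h6 : curvatureTensor Γ p (c • v) v v = 0 := by
      simp only [curvatureTensor, map_smul, smul_apply]
      simp
    rw [h6]
    simp only [map_zero, zero_apply, map_smul, smul_apply, smul_eq_mul]
    nlinarith

end P219G
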