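import Mathlib.Analysis.SpecialFunctions.Trigonometric.DerivHyp
import Vale.Agent.Lib.P219.K.Geo.Sec
import Vale.Agent.Lib.P219.K.Geo.Par
import Vale.Agent.Lib.P219.K.Geo.QMap

/-!
# P219, curvature `≤ -1`: the index inequality

`z = (x, v)`, `y = ex x v`, `v' = ve x v`, `z' = (y, -v')`, `r = √(g x v v)`, `γ t = (Ψ t z).1`.
`Ψ t z' = ((Ψ (1-t) z).1, -(Ψ (1-t) z).2)` (both sides are flow lines; `flow_back`, `IsFlow.add`).
`Y t = Jf Ψ z (0,ξ) t + Jf Ψ z' (0,ξ') (1-t)` and `Y1 t = DJf z (0,ξ) t - DJf z' (0,ξ') (1-t)` satisfy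
`Y' = Y1 - Γ(γ', Y)`, `Y1' = -R(Y,γ')γ' - Γ(γ', Y1)`, and `Y ⊥ γ'` (Gauss lemma for both summands).
`Y 0 = a = Dex y (-v') ξ'`, `Y 1 = b = Dex x v ξ`, `Y1 0 = ξ - Qf y (-v') ξ'`, `Y1 1 = Qf x v ξ - ξ'`.
Comparison field: `A t = T t a`, `B t = T t b₀` parallel (`exists_parallel`) with `B 1 = b` (`T 1` is
bijective), `Z = (sinh(r(1-t)) A + sinh(r t) B)/sinh r`, `Z1 = r(-cosh(r(1-t)) A + cosh(r t) B)/sinh r`.
`θ = g(Y1,Y) - 2 g(Z1, Y - Z) - g(Z1, Z)` has `θ' ≥ |Y1 - Z1|² + r² |Y - Z|² ≥ 0`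
(`curv_le`, `flow_speed`), so `θ 0 ≤ θ 1`.  `Y = Z` at the ends,
`g(Z1,Z)(1) - g(Z1,Z)(0) = (r/sinh r)(cosh r (|a|² + |b|²) - 2 g(T 1 a, b))` and
`g(Y1,Y)(1) - g(Y1,Y)(0) = g(Qf ξ, b) + g(Qf' ξ', a) - g(ξ', b) - g(ξ, a)`, with
`g y b ξ' = g x ξ a` (`Dex_adjoint`).  For `r = 0` both sides are `0`.
-/

open scoped ContDiff
open Vale.Agent.Lib.P219 (Ev)

namespace P219G

variable {n : ℕ} {g : Ev n → Ev n →L[ℝ] Ev n →L[ℝ] ℝ}
  {Γ : Ev n → Ev n →L[ℝ] Ev n →L[ℝ] Ev n} {Ψ : ℝ → Ev n × Ev n → Ev n × Ev n}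

/-- reversed geodesic -/
theorem flow_rev (hΓ : IsLeviCivita g Γ) (h : IsFlow (spray Γ) Ψ) (x v : Ev n) (t : ℝ) :
    Ψ t (ex Ψ x v, -(ve Ψ x v)) = ((Ψ (1 - t) (x, v)).1, -(Ψ (1 - t) (x, v)).2) := by
  have hF : ContDiff ℝ 1 (spray Γ) :=
    (spray_contDiff hΓ.smooth).of_le (by exact_mod_cast le_top)
  have h1 := flow_smul hΓ.smooth h t (-1) (ex Ψ x v) (ve Ψ x v)
  have h2 : ((-1 : ℝ) • ve Ψ x v) = - ve Ψ x v := by simp
  rw [h2] at h1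
  have h3 : Ψ ((-1 : ℝ) * t) (ex Ψ x v, ve Ψ x v) = Ψ (1 - t) (x, v) := by
    have h4 : (ex Ψ x v, ve Ψ x v) = Ψ 1 (x, v) := rfl
    rw [h4, ← IsFlow.add hF h]
    congr 1
    ring
  rw [h1, h3]
  simp

private theorem flow_rev' (hΓ : IsLeviCivita g Γ) (h : IsFlow (spray Γ) Ψ) (x v : Ev n) (t : ℝ) :
    Ψ (1 - t) (ex Ψ x v, -(ve Ψ x v)) = ((Ψ t (x, v)).1, -(Ψ t (x, v)).2) := by
  have h1 := flow_rev hΓ h x v (1 - t)
  rw [sub_sub_cancel] at h1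
  exact h1

private theorem jf_deriv (hΓ : IsLeviCivita g Γ) (h : IsFlow (spray Γ) Ψ)
    (z ζ : Ev n × Ev n) (t : ℝ) :
    HasDerivAt (Jf Ψ z ζ) (DJf Γ Ψ z ζ t - Γ (Ψ t z).1 (Ψ t z).2 (Jf Ψ z ζ t)) t := by
  have h1 := hasDerivAt_Jf hΓ h z ζ t
  have h2 : DJf Γ Ψ z ζ t - Γ (Ψ t z).1 (Ψ t z).2 (Jf Ψ z ζ t) = (fderiv ℝ (Ψ t) z ζ).2 := by
    unfold DJf
    abel
  rw [h2]
  exact h1

private theorem jf_rev_deriv (hΓ : IsLeviCivita g Γ) (h : IsFlow (spray Γ) Ψ) (x v : Ev n)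
    (ζ : Ev n × Ev n) (t : ℝ) :
    HasDerivAt (fun s => Jf Ψ (ex Ψ x v, -(ve Ψ x v)) ζ (1 - s))
      (-(DJf Γ Ψ (ex Ψ x v, -(ve Ψ x v)) ζ (1 - t))
        - Γ (Ψ t (x, v)).1 (Ψ t (x, v)).2 (Jf Ψ (ex Ψ x v, -(ve Ψ x v)) ζ (1 - t))) t := by
  have h1 := (jf_deriv hΓ h (ex Ψ x v, -(ve Ψ x v)) ζ (1 - t)).comp_const_sub 1 t
  rw [flow_rev' hΓ h x v t] at h1
  refine h1.congr_deriv ?_
  simp only [map_neg, neg_apply]
  abel

private theorem djf_rev_deriv (hΓ : IsLeviCivita g Γ) (h : IsFlow (spray Γ) Ψ) (x v : Ev n)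
    (ζ : Ev n × Ev n) (t : ℝ) :
    HasDerivAt (fun s => -(DJf Γ Ψ (ex Ψ x v, -(ve Ψ x v)) ζ (1 - s)))
      (-(curvatureTensor Γ (Ψ t (x, v)).1 (Jf Ψ (ex Ψ x v, -(ve Ψ x v)) ζ (1 - t))
          (Ψ t (x, v)).2 (Ψ t (x, v)).2)
        - Γ (Ψ t (x, v)).1 (Ψ t (x, v)).2
          (-(DJf Γ Ψ (ex Ψ x v, -(ve Ψ x v)) ζ (1 - t)))) t := by
  have h1 := ((hasDerivAt_DJf hΓ h (ex Ψ x v, -(ve Ψ x v)) ζ (1 - t)).comp_const_sub 1 t).fun_neg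
  rw [flow_rev' hΓ h x v t] at h1
  refine h1.congr_deriv ?_
  simp only [curvatureTensor, map_neg, neg_apply, neg_neg]

private theorem curv_add (p u1 u2 w : Ev n) :
    curvatureTensor Γ p (u1 + u2) w w = curvatureTensor Γ p u1 w w
      + curvatureTensor Γ p u2 w w := by
  simp only [curvatureTensor, map_add, add_apply]
  abel

private theorem lin_deriv {z : Ev n × Ev n} {T : ℝ → Ev n →L[ℝ] Ev n}
    (hT : ∀ t u, HasDerivAt (fun s => T s u) (-(Γ (Ψ t z).1 (Ψ t z).2 (T t u))) t)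
    {α β : ℝ → ℝ} {α' β' : ℝ} {t : ℝ} (hα : HasDerivAt α α' t) (hβ : HasDerivAt β β' t)
    (a b : Ev n) :
    HasDerivAt (fun s => α s • T s a + β s • T s b)
      ((α' • T t a + β' • T t b) - Γ (Ψ t z).1 (Ψ t z).2 (α t • T t a + β t • T t b)) t := by
  have h1 := (hα.smul (hT t a)).add (hβ.smul (hT t b))
  refine h1.congr_deriv ?_
  simp only [map_add, map_smul, smul_neg]
  abel

private theorem metric_nn (hg : IsMetric g) (p u : Ev n) : 0 ≤ g p u u := by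
  by_cases hu : u = 0
  · rw [hu]
    simp
  · exact (hg.pos p u hu).le

private theorem gauss_perp (hg : IsMetric g) (hΓ : IsLeviCivita g Γ) (h : IsFlow (spray Γ) Ψ)
    (x v ξ : Ev n) (hξ : g x v ξ = 0) (t : ℝ) :
    g (Ψ t (x, v)).1 (Ψ t (x, v)).2 (Jf Ψ (x, v) (0, ξ) t) = 0 := by
  have h1 := Dex_gauss hg hΓ h x (t • v) ξ
  have h2 := flow_smul hΓ.smooth h 1 t x v
  rw [mul_one] at h2
  have hex : ex Ψ x (t • v) = (Ψ t (x, v)).1 := by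
    unfold ex
    rw [h2]
  have hve : ve Ψ x (t • v) = t • (Ψ t (x, v)).2 := by
    unfold ve
    rw [h2]
  rw [hex, hve, map_smul, map_smul] at h1
  rw [Jf_eq hΓ h, map_smul]
  simp only [smul_apply, smul_eq_mul] at h1 ⊢
  rw [h1, hξ, mul_zero]

/-- the monotone quantity -/
private theorem theta_deriv (hg : IsMetric g) (hΓ : IsLeviCivita g Γ) (hK : IsSecLe g Γ)
    (h : IsFlow (spray Γ) Ψ) (z : Ev n × Ev n) (Y Y1 Z Z1 : ℝ → Ev n) (t : ℝ)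
    (hY : HasDerivAt Y (Y1 t - Γ (Ψ t z).1 (Ψ t z).2 (Y t)) t)
    (hY1 : HasDerivAt Y1 (-(curvatureTensor Γ (Ψ t z).1 (Y t) (Ψ t z).2 (Ψ t z).2)
      - Γ (Ψ t z).1 (Ψ t z).2 (Y1 t)) t)
    (hZ : HasDerivAt Z (Z1 t - Γ (Ψ t z).1 (Ψ t z).2 (Z t)) t)
    (hZ1 : HasDerivAt Z1 (g z.1 z.2 z.2 • Z t - Γ (Ψ t z).1 (Ψ t z).2 (Z1 t)) t)
    (hperp : g (Ψ t z).1 (Y t) (Ψ t z).2 = 0) :
    ∃ d : ℝ, 0 ≤ d ∧ HasDerivAt (fun s => g (Ψ s z).1 (Y1 s) (Y s)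
      - 2 * g (Ψ s z).1 (Z1 s) (Y s - Z s) - g (Ψ s z).1 (Z1 s) (Z s)) d t := by
  have hYZ : HasDerivAt (fun s => Y s - Z s)
      ((Y1 t - Z1 t) - Γ (Ψ t z).1 (Ψ t z).2 (Y t - Z t)) t := by
    refine (hY.fun_sub hZ).congr_deriv ?_
    rw [map_sub]
    abel
  have d1 := hasDerivAt_inner hg hΓ h z Y1 Y _ _ t hY1 hY
  have d2 := hasDerivAt_inner hg hΓ h z Z1 (fun s => Y s - Z s) _ _ t hZ1 hYZ
  have d3 := hasDerivAt_inner hg hΓ h z Z1 Z _ _ t hZ1 hZ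
  have d4 := (d1.fun_sub (d2.const_mul 2)).fun_sub d3
  refine ⟨_, ?_, d4⟩
  have hc := curv_le hg hΓ hK (Ψ t z).1 (Y t) (Ψ t z).2
  have hsp := flow_speed hg hΓ h t z
  rw [hperp, hsp] at hc
  have n1 := metric_nn hg (Ψ t z).1 (Y1 t - Z1 t)
  have n2 := mul_nonneg (metric_nn hg z.1 z.2) (metric_nn hg (Ψ t z).1 (Y t - Z t))
  simp only [map_sub, map_neg, map_smul, sub_apply, neg_apply, smul_apply, smul_eq_mul] at n1 n2 ⊢
  have s1 := hg.symm (Ψ t z).1 (Y1 t) (Z1 t)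
  have s2 := hg.symm (Ψ t z).1 (Y t) (Z t)
  rw [s1] at n1
  rw [s2] at n2
  linarith

private theorem index_of_fields (hg : IsMetric g) (hΓ : IsLeviCivita g Γ) (hK : IsSecLe g Γ)
    (h : IsFlow (spray Γ) Ψ) (z : Ev n × Ev n) (Y Y1 Z Z1 : ℝ → Ev n)
    (hY : ∀ t, HasDerivAt Y (Y1 t - Γ (Ψ t z).1 (Ψ t z).2 (Y t)) t)
    (hY1 : ∀ t, HasDerivAt Y1 (-(curvatureTensor Γ (Ψ t z).1 (Y t) (Ψ t z).2 (Ψ t z).2)
      - Γ (Ψ t z).1 (Ψ t z).2 (Y1 t)) t)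
    (hZ : ∀ t, HasDerivAt Z (Z1 t - Γ (Ψ t z).1 (Ψ t z).2 (Z t)) t)
    (hZ1 : ∀ t, HasDerivAt Z1 (g z.1 z.2 z.2 • Z t - Γ (Ψ t z).1 (Ψ t z).2 (Z1 t)) t)
    (hperp : ∀ t, g (Ψ t z).1 (Y t) (Ψ t z).2 = 0) (h0 : Z 0 = Y 0) (h1 : Z 1 = Y 1) :
    g (Ψ 0 z).1 (Y1 0) (Y 0) - g (Ψ 0 z).1 (Z1 0) (Y 0)
      ≤ g (Ψ 1 z).1 (Y1 1) (Y 1) - g (Ψ 1 z).1 (Z1 1) (Y 1) := by
  choose d hd0 hd using fun t => theta_deriv hg hΓ hK h z Y Y1 Z Z1 t (hY t) (hY1 t) (hZ t)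
    (hZ1 t) (hperp t)
  have hmono := monotone_of_deriv_nonneg (fun t => (hd t).differentiableAt)
    (fun t => by rw [(hd t).deriv]; exact hd0 t)
  have h2 := hmono (zero_le_one' ℝ)
  simp only [h0, h1, sub_self, map_zero, mul_zero, sub_zero] at h2
  exact h2

theorem index_ineq (hg : IsMetric g) (hΓ : IsLeviCivita g Γ) (hK : IsSecLe g Γ)
    (h : IsFlow (spray Γ) Ψ) (x v ξ ξ' : Ev n) (hξ : g x v ξ = 0)
    (hξ' : g (ex Ψ x v) (ve Ψ x v) ξ' = 0) (T : ℝ → Ev n →L[ℝ] Ev n) (hT0 : ∀ u, T 0 u = u)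
    (hT : ∀ t u, HasDerivAt (fun s => T s u) (-(Γ (Ψ t (x, v)).1 (Ψ t (x, v)).2 (T t u))) t)
    (hTg : ∀ t u w, g (Ψ t (x, v)).1 (T t u) (T t w) = g x u w) :
    √(g x v v) * (Real.cosh (√(g x v v)) * (g (ex Ψ x v) (Dex Ψ x v ξ) (Dex Ψ x v ξ)
        + g x (Dex Ψ (ex Ψ x v) (-(ve Ψ x v)) ξ') (Dex Ψ (ex Ψ x v) (-(ve Ψ x v)) ξ'))
        - 2 * g (ex Ψ x v) (T 1 (Dex Ψ (ex Ψ x v) (-(ve Ψ x v)) ξ')) (Dex Ψ x v ξ))
      ≤ Real.sinh (√(g x v v)) * (g (ex Ψ x v) (Qf Γ Ψ x v ξ) (Dex Ψ x v ξ)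
        + g x (Qf Γ Ψ (ex Ψ x v) (-(ve Ψ x v)) ξ') (Dex Ψ (ex Ψ x v) (-(ve Ψ x v)) ξ')
        - 2 * g x ξ (Dex Ψ (ex Ψ x v) (-(ve Ψ x v)) ξ')) := by
  set r := √(g x v v) with hr
  have hr0 : 0 ≤ r := Real.sqrt_nonneg _
  have hr2 : r * r = g x v v := Real.mul_self_sqrt (metric_nn hg x v)
  rcases hr0.eq_or_lt with hr00 | hrpos
  · rw [← hr00]
    simp
  have hs : 0 < Real.sinh r := Real.sinh_pos_iff.2 hrpos
  set y := ex Ψ x v with hy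
  set v' := ve Ψ x v with hv'
  set a := Dex Ψ y (-v') ξ' with ha
  set b := Dex Ψ x v ξ with hb
  -- the fields
  have hF0 : ∀ z : Ev n × Ev n, Ψ 0 z = z := h.zero
  have hΨ1 : Ψ 1 (x, v) = (y, v') := rfl
  have hΨ1' : (Ψ 1 (x, v)).1 = y := rfl
  have hΨ0' : (Ψ 0 (x, v)).1 = x := by rw [hF0]
  -- surjectivity of `T 1`
  have hinj : Function.Injective (T 1) := by
    rw [injective_iff_map_eq_zero]
    intro u hu
    by_contra hne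
    have h1 := hTg 1 u u
    rw [hu, map_zero] at h1
    have h2 := hg.pos x u hne
    rw [← h1] at h2
    simp at h2
  obtain ⟨b₀, hb₀⟩ := (LinearMap.injective_iff_surjective (f := (T 1).toLinearMap)).1 hinj b
  have hb₀' : T 1 b₀ = b := hb₀
  -- derivative of the scalar functions
  have hlin : ∀ t : ℝ, HasDerivAt (fun s : ℝ => r * (1 - s)) (-r) t := by
    intro t
    have := ((hasDerivAt_id t).const_sub 1).const_mul r
    simpa using this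
  have hlin2 : ∀ t : ℝ, HasDerivAt (fun s : ℝ => r * s) r t := by
    intro t
    have := (hasDerivAt_id t).const_mul r
    simpa using this
  have a1 : ∀ t : ℝ, HasDerivAt (fun s : ℝ => Real.sinh (r * (1 - s)) / Real.sinh r)
      (-(r * Real.cosh (r * (1 - t)) / Real.sinh r)) t := by
    intro t
    refine (((Real.hasDerivAt_sinh _).comp t (hlin t)).div_const (Real.sinh r)).congr_deriv ?_
    ring
  have a2 : ∀ t : ℝ, HasDerivAt (fun s : ℝ => Real.sinh (r * s) / Real.sinh r)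
      (r * Real.cosh (r * t) / Real.sinh r) t := by
    intro t
    refine (((Real.hasDerivAt_sinh _).comp t (hlin2 t)).div_const (Real.sinh r)).congr_deriv ?_
    ring
  have a3 : ∀ t : ℝ, HasDerivAt (fun s : ℝ => -(r * Real.cosh (r * (1 - s)) / Real.sinh r))
      (r * r * (Real.sinh (r * (1 - t)) / Real.sinh r)) t := by
    intro t
    refine (((((Real.hasDerivAt_cosh _).comp t (hlin t)).const_mul r).div_const
      (Real.sinh r)).fun_neg).congr_deriv ?_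
    ring
  have a4 : ∀ t : ℝ, HasDerivAt (fun s : ℝ => r * Real.cosh (r * s) / Real.sinh r)
      (r * r * (Real.sinh (r * t) / Real.sinh r)) t := by
    intro t
    refine ((((Real.hasDerivAt_cosh _).comp t (hlin2 t)).const_mul r).div_const
      (Real.sinh r)).congr_deriv ?_
    ring
  have key := index_of_fields hg hΓ hK h (x, v)
    (fun t => Jf Ψ (x, v) (0, ξ) t + Jf Ψ (y, -v') (0, ξ') (1 - t))
    (fun t => DJf Γ Ψ (x, v) (0, ξ) t + -(DJf Γ Ψ (y, -v') (0, ξ') (1 - t)))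
    (fun t => (Real.sinh (r * (1 - t)) / Real.sinh r) • T t a
      + (Real.sinh (r * t) / Real.sinh r) • T t b₀)
    (fun t => (-(r * Real.cosh (r * (1 - t)) / Real.sinh r)) • T t a
      + (r * Real.cosh (r * t) / Real.sinh r) • T t b₀)
    ?_ ?_ ?_ ?_ ?_ ?_ ?_
  · have e0 : Jf Ψ (x, v) (0, ξ) 0 = 0 := by
      rw [Jf_eq hΓ h, zero_smul]
    have e1 : Jf Ψ (x, v) (0, ξ) 1 = b := by
      rw [Jf_eq hΓ h, one_smul, one_smul]
    have e2 : Jf Ψ (y, -v') (0, ξ') 0 = 0 := by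
      rw [Jf_eq hΓ h, zero_smul]
    have e3 : Jf Ψ (y, -v') (0, ξ') 1 = a := by
      rw [Jf_eq hΓ h, one_smul, one_smul]
    have e4 := DJf_zero hΓ h x v ξ
    have e5 := DJf_zero hΓ h y (-v') ξ'
    have e6 : DJf Γ Ψ (x, v) (0, ξ) 1 = Qf Γ Ψ x v ξ := (Qf_apply x v ξ).symm
    have e7 : DJf Γ Ψ (y, -v') (0, ξ') 1 = Qf Γ Ψ y (-v') ξ' := (Qf_apply y (-v') ξ').symm
    have hadj := Dex_adjoint hg hΓ hK.nonpos h x v ξ ξ'
    have hTab : g x b₀ a = g y b (T 1 a) := by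
      have := hTg 1 b₀ a
      rw [hΨ1', hb₀'] at this
      exact this.symm
    simp only [e0, e1, e2, e3, e4, e5, e6, e7, hΨ0', hΨ1', sub_zero, sub_self, mul_zero, mul_one,
      Real.cosh_zero, hT0, hb₀', zero_add, add_zero, map_add, map_neg, map_smul, add_apply,
      neg_apply, smul_apply, smul_eq_mul, hTab] at key
    have s1 := hg.symm y ξ' b
    have s2 := hg.symm y b (T 1 a)
    rw [s1, hadj, s2] at key
    have k2 := mul_le_mul_of_nonneg_left key hs.le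
    have hsne := hs.ne'
    field_simp at k2
    linarith
  · intro t
    refine ((jf_deriv hΓ h (x, v) (0, ξ) t).fun_add
      (jf_rev_deriv hΓ h x v (0, ξ') t)).congr_deriv ?_
    rw [map_add]
    abel
  · intro t
    refine ((hasDerivAt_DJf hΓ h (x, v) (0, ξ) t).fun_add
      (djf_rev_deriv hΓ h x v (0, ξ') t)).congr_deriv ?_
    rw [map_add, curv_add]
    abel
  · intro t
    exact lin_deriv hT (a1 t) (a2 t) a b₀
  · intro t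
    refine (lin_deriv hT (a3 t) (a4 t) a b₀).congr_deriv ?_
    rw [smul_add, smul_smul, smul_smul, ← hr2]
  · intro t
    have p1 := gauss_perp hg hΓ h x v ξ hξ t
    have hξ'' : g y (-v') ξ' = 0 := by
      rw [map_neg, neg_apply, hξ', neg_zero]
    have p2 := gauss_perp hg hΓ h y (-v') ξ' hξ'' (1 - t)
    rw [flow_rev' hΓ h x v t] at p2
    simp only [map_neg, neg_apply, neg_eq_zero] at p2
    rw [hg.symm, map_add, p1, p2, add_zero]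
  · simp only [sub_zero, mul_one, mul_zero, Real.sinh_zero, zero_div, zero_smul, add_zero,
      div_self hs.ne', one_smul, hT0]
    rw [Jf_eq hΓ h, zero_smul, zero_add, Jf_eq hΓ h, one_smul, one_smul]
  · simp only [sub_self, mul_one, mul_zero, Real.sinh_zero, zero_div, zero_smul, zero_add,
      div_self hs.ne', one_smul, hb₀']
    rw [Jf_eq hΓ h, one_smul, one_smul, Jf_eq hΓ h, zero_smul, add_zero]

end P219G
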