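import Mathlib.Algebra.Order.Star.Real
import Mathlib.Algebra.Ring.IsFormallyReal
import Mathlib.Analysis.Calculus.LHopital
import Mathlib.Analysis.InnerProductSpace.Basic
import Mathlib.Analysis.SpecialFunctions.Sqrt
import Mathlib.Analysis.SpecialFunctions.Trigonometric.DerivHyp
import Mathlib.Topology.Algebra.Module.ModuleTopology

/-!
# P219, curvature `≤ -1`: scalar comparison for Jacobi fields

`h = g(J,J)`, `p = g(DJ,J)`, `k = g(DJ,DJ)`, `p' = p1 ≥ k + r² h`, `s(t) = sinh (r t)`.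

Proof of `scalar_coth`.  `p ≥ 0` on `[0,∞)` as `p 0 = 0` (`p² ≤ h k`) and `p1 ≥ 0`.
`W = p s - h s'`, `W' = p1 s - p s' - r² h s ≥ k s - p s'`.  For `ε > 0`
`(W/√(h+ε))' = (W' (h+ε) - W p)/(h+ε)^{3/2} ≥ (s (k (h+ε) - p²) - ε p s')/(h+ε)^{3/2}
≥ - ε p s'/(h+ε)^{3/2} ≥ - r cosh (r t) ε p/(h+ε)^{3/2}` and `ε p/(h+ε)^{3/2} = -ε ((h+ε)^{-1/2})'`, so
`W/√(h+ε) - r cosh(r) ε (h+ε)^{-1/2}` is nondecreasing on `[0,1]`, hence
`W(1)/√(h(1)+ε) ≥ - r cosh(r) √ε`; let `ε → 0` (if `h 1 = 0` then `p 1 = 0` and the claim is trivial).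
The same argument on `[0,t]`.
-/

open Filter Topology

namespace P219G

private theorem scalarK_p0 (h p k : ℝ → ℝ) (hh0 : h 0 = 0) (hcs : ∀ t, p t ^ 2 ≤ h t * k t) :
    p 0 = 0 := by
  have h1 := hcs 0
  rw [hh0, zero_mul] at h1
  exact pow_eq_zero_iff two_ne_zero |>.1 (le_antisymm h1 (sq_nonneg _))

private theorem scalarK_ppos (r : ℝ) (h p k p1 : ℝ → ℝ)
    (hp : ∀ t, HasDerivAt p (p1 t) t) (hk : ∀ t, k t + r ^ 2 * h t ≤ p1 t) (hh0 : h 0 = 0)
    (hpos : ∀ t, 0 ≤ h t) (hkpos : ∀ t, 0 ≤ k t) (hcs : ∀ t, p t ^ 2 ≤ h t * k t)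
    (t : ℝ) (ht : 0 ≤ t) : 0 ≤ p t := by
  have hm : Monotone p := by
    refine monotone_of_deriv_nonneg (fun x => (hp x).differentiableAt) fun x => ?_
    rw [(hp x).deriv]
    have h1 := hk x
    have h2 := hkpos x
    have h3 := mul_nonneg (sq_nonneg r) (hpos x)
    linarith
  have h1 := hm ht
  rwa [scalarK_p0 h p k hh0 hcs] at h1

private theorem scalarK_sinh (r x : ℝ) :
    HasDerivAt (fun x => Real.sinh (r * x)) (r * Real.cosh (r * x)) x := by
  have h1 : HasDerivAt (fun x : ℝ => r * x) (r * 1) x := (hasDerivAt_id x).const_mul r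
  have h2 := h1.sinh
  rw [mul_one, mul_comm] at h2
  exact h2

private theorem scalarK_cosh (r x : ℝ) :
    HasDerivAt (fun x => r * Real.cosh (r * x)) (r ^ 2 * Real.sinh (r * x)) x := by
  have h1 : HasDerivAt (fun x : ℝ => r * x) (r * 1) x := (hasDerivAt_id x).const_mul r
  have h2 := (h1.cosh).const_mul r
  have e : r * (Real.sinh (r * x) * (r * 1)) = r ^ 2 * Real.sinh (r * x) := by ring
  rw [e] at h2
  exact h2

theorem scalar_coth (r : ℝ) (hr : 0 ≤ r) (h p k p1 : ℝ → ℝ) (hh : ∀ t, HasDerivAt h (2 * p t) t)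
    (hp : ∀ t, HasDerivAt p (p1 t) t) (hk : ∀ t, k t + r ^ 2 * h t ≤ p1 t) (hh0 : h 0 = 0)
    (hpos : ∀ t, 0 ≤ h t) (hkpos : ∀ t, 0 ≤ k t) (hcs : ∀ t, p t ^ 2 ≤ h t * k t)
    (t : ℝ) (ht : 0 ≤ t) : h t * (r * Real.cosh (r * t)) ≤ p t * Real.sinh (r * t) := by
  have hppos := scalarK_ppos r h p k p1 hp hk hh0 hpos hkpos hcs
  have hp0 := scalarK_p0 h p k hh0 hcs
  set C : ℝ := r * Real.cosh (r * t) with hC
  have hC0 : 0 ≤ C := mul_nonneg hr (Real.cosh_pos _).le
  have key : ∀ ε : ℝ, 0 < ε →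
      -(C * √ε * √(h t + ε)) ≤ p t * Real.sinh (r * t) - h t * C := by
    intro ε hε
    have hupos : ∀ x, 0 < h x + ε := fun x => by have := hpos x; linarith
    have hu0 : ∀ x, 0 < √(h x + ε) := fun x => Real.sqrt_pos.2 (hupos x)
    have husq : ∀ x, √(h x + ε) ^ 2 = h x + ε := fun x => Real.sq_sqrt (hupos x).le
    have hu : ∀ x, HasDerivAt (fun x => √(h x + ε)) (p x / √(h x + ε)) x := by
      intro x
      have h1 := ((hh x).add_const ε).sqrt (ne_of_gt (hupos x))
      have h2 : 2 * p x / (2 * √(h x + ε)) = p x / √(h x + ε) := by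
        rw [mul_div_mul_left _ _ two_ne_zero]
      rw [h2] at h1
      exact h1
    have hW : ∀ x, HasDerivAt
        (fun x => p x * Real.sinh (r * x) - h x * (r * Real.cosh (r * x)) - ε * C)
        (p1 x * Real.sinh (r * x) - p x * (r * Real.cosh (r * x)) -
          r ^ 2 * h x * Real.sinh (r * x)) x := by
      intro x
      have h1 := (((hp x).mul (scalarK_sinh r x)).sub ((hh x).mul (scalarK_cosh r x))).sub_const
        (ε * C)
      refine h1.congr_deriv ?_
      ring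
    have hF : ∀ x, HasDerivAt
        (fun x => (p x * Real.sinh (r * x) - h x * (r * Real.cosh (r * x)) - ε * C) /
          √(h x + ε))
        (((p1 x * Real.sinh (r * x) - p x * (r * Real.cosh (r * x)) -
          r ^ 2 * h x * Real.sinh (r * x)) * √(h x + ε) -
          (p x * Real.sinh (r * x) - h x * (r * Real.cosh (r * x)) - ε * C) *
            (p x / √(h x + ε))) / √(h x + ε) ^ 2) x := fun x =>
      (hW x).div (hu x) (hu0 x).ne'
    have hmono : MonotoneOn
        (fun x => (p x * Real.sinh (r * x) - h x * (r * Real.cosh (r * x)) - ε * C) /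
          √(h x + ε)) (Set.Icc 0 t) := by
      refine monotoneOn_of_deriv_nonneg (convex_Icc 0 t)
        (fun x _ => (hF x).continuousAt.continuousWithinAt)
        (fun x _ => (hF x).differentiableAt.differentiableWithinAt) fun x hx => ?_
      rw [interior_Icc] at hx
      rw [(hF x).deriv]
      refine div_nonneg ?_ (sq_nonneg _)
      have hS : 0 ≤ Real.sinh (r * x) := Real.sinh_nonneg_iff.2 (mul_nonneg hr hx.1.le)
      have hCx : r * Real.cosh (r * x) ≤ C := by
        rw [hC]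
        refine mul_le_mul_of_nonneg_left ?_ hr
        rw [Real.cosh_le_cosh, abs_of_nonneg (mul_nonneg hr hx.1.le),
          abs_of_nonneg (mul_nonneg hr ht)]
        exact mul_le_mul_of_nonneg_left hx.2.le hr
      have hpx := hppos x hx.1.le
      have g1 : (k x + r ^ 2 * h x) * Real.sinh (r * x) ≤ p1 x * Real.sinh (r * x) :=
        mul_le_mul_of_nonneg_right (hk x) hS
      have g2 : p x * (r * Real.cosh (r * x)) ≤ p x * C := mul_le_mul_of_nonneg_left hCx hpx
      have g3 : p x ^ 2 * Real.sinh (r * x) ≤ h x * k x * Real.sinh (r * x) :=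
        mul_le_mul_of_nonneg_right (hcs x) hS
      have g4 : 0 ≤ k x * Real.sinh (r * x) := mul_nonneg (hkpos x) hS
      have e1 : (p1 x * Real.sinh (r * x) - p x * (r * Real.cosh (r * x)) -
          r ^ 2 * h x * Real.sinh (r * x)) * √(h x + ε) -
          (p x * Real.sinh (r * x) - h x * (r * Real.cosh (r * x)) - ε * C) *
            (p x / √(h x + ε)) =
          ((p1 x * Real.sinh (r * x) - p x * (r * Real.cosh (r * x)) -
          r ^ 2 * h x * Real.sinh (r * x)) * (h x + ε) -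
          (p x * Real.sinh (r * x) - h x * (r * Real.cosh (r * x)) - ε * C) * p x) /
            √(h x + ε) := by
        rw [eq_div_iff (hu0 x).ne', sub_mul, mul_assoc, ← sq, husq, mul_assoc
          (p x * Real.sinh (r * x) - h x * (r * Real.cosh (r * x)) - ε * C),
          div_mul_cancel₀ _ (hu0 x).ne']
      rw [e1]
      refine div_nonneg ?_ (hu0 x).le
      have g5 : (k x * Real.sinh (r * x) - p x * (r * Real.cosh (r * x))) * (h x + ε) ≤
          (p1 x * Real.sinh (r * x) - p x * (r * Real.cosh (r * x)) -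
          r ^ 2 * h x * Real.sinh (r * x)) * (h x + ε) := by
        refine mul_le_mul_of_nonneg_right ?_ (hupos x).le
        linarith
      have g6 := mul_le_mul_of_nonneg_left g2 hε.le
      have g7 := mul_nonneg hε.le g4
      nlinarith
    have h0 := hmono (Set.left_mem_Icc.2 ht) (Set.right_mem_Icc.2 ht) ht
    simp only [hh0, hp0, zero_mul, zero_sub, zero_add, sub_zero] at h0
    rw [← hC] at h0
    rw [div_le_div_iff₀ (Real.sqrt_pos.2 hε) (hu0 t)] at h0
    have hse := Real.sqrt_pos.2 hε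
    have hsq : √ε * √ε = ε := Real.mul_self_sqrt hε.le
    have h1 : -(C * √ε * √(h t + ε)) * √ε ≤
        (p t * Real.sinh (r * t) - h t * C - ε * C) * √ε := by
      calc -(C * √ε * √(h t + ε)) * √ε = -((√ε * √ε) * C) * √(h t + ε) := by ring
        _ = -(ε * C) * √(h t + ε) := by rw [hsq]
        _ ≤ _ := h0
    have h2 := le_of_mul_le_mul_right h1 hse
    have h3 := mul_nonneg hε.le hC0
    linarith
  have t1 : Tendsto (fun ε : ℝ => -(C * √ε * √(h t + ε))) (𝓝[>] 0)
      (𝓝 (-(C * √0 * √(h t + 0)))) :=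
    ((((continuous_const.mul Real.continuous_sqrt).mul
      (Real.continuous_sqrt.comp (continuous_const.add continuous_id))).neg).tendsto 0).mono_left
      nhdsWithin_le_nhds
  have h1 := le_of_tendsto t1
    (by filter_upwards [self_mem_nhdsWithin] with ε hε using key ε hε)
  rw [Real.sqrt_zero, mul_zero, zero_mul, neg_zero] at h1
  linarith

/-- `(h/s²)' = 2 (p s - h s')/s³ ≥ 0` on `(0,∞)` (`scalar_coth`) and `h/s² → p1 0/r²` at `0+`
(l'Hopital as in `scalar_lower` of Geo/Scalar, `r > 0`; for `r = 0` the claim reads `0 ≤ 0`). -/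
theorem scalar_sinh (r : ℝ) (hr : 0 ≤ r) (h p k p1 : ℝ → ℝ) (hh : ∀ t, HasDerivAt h (2 * p t) t)
    (hp : ∀ t, HasDerivAt p (p1 t) t) (hk : ∀ t, k t + r ^ 2 * h t ≤ p1 t) (hh0 : h 0 = 0)
    (hpos : ∀ t, 0 ≤ h t) (hkpos : ∀ t, 0 ≤ k t) (hcs : ∀ t, p t ^ 2 ≤ h t * k t)
    (t : ℝ) (ht : 0 ≤ t) : Real.sinh (r * t) ^ 2 * p1 0 ≤ r ^ 2 * h t := by
  have hp0 := scalarK_p0 h p k hh0 hcs
  rcases eq_or_lt_of_le hr with rfl | hr0
  · simp
  rcases eq_or_lt_of_le ht with rfl | ht0
  · simp [hh0]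
  have hS : ∀ x, 0 < x → 0 < Real.sinh (r * x) := fun x hx =>
    Real.sinh_pos_iff.2 (mul_pos hr0 hx)
  -- the limit
  have hpr : Tendsto (fun x => p x / x) (𝓝[>] 0) (𝓝 (p1 0)) := by
    have h1 := (hasDerivAt_iff_tendsto_slope.1 (hp 0))
    have h2 : Tendsto (slope p 0) (𝓝[>] 0) (𝓝 (p1 0)) :=
      h1.mono_left (nhdsWithin_mono _ (fun x hx => ne_of_gt hx))
    refine h2.congr fun x => ?_
    rw [slope_def_field, hp0, sub_zero, sub_zero]
  have hsr : Tendsto (fun x => Real.sinh (r * x) / x) (𝓝[>] 0) (𝓝 r) := by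
    have h0 := scalarK_sinh r 0
    rw [mul_zero, Real.cosh_zero, mul_one] at h0
    have h1 := (hasDerivAt_iff_tendsto_slope.1 h0)
    have h2 : Tendsto (slope (fun x => Real.sinh (r * x)) 0) (𝓝[>] 0) (𝓝 r) :=
      h1.mono_left (nhdsWithin_mono _ (fun x hx => ne_of_gt hx))
    refine h2.congr fun x => ?_
    rw [slope_def_field, mul_zero, Real.sinh_zero, sub_zero, sub_zero]
  have hcr : Tendsto (fun x => r * Real.cosh (r * x)) (𝓝[>] 0) (𝓝 r) := by
    have h1 : Tendsto (fun x => r * Real.cosh (r * x)) (𝓝 0) (𝓝 (r * Real.cosh (r * 0))) :=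
      (scalarK_cosh r 0).continuousAt
    rw [mul_zero, Real.cosh_zero, mul_one] at h1
    exact h1.mono_left nhdsWithin_le_nhds
  have hsq : ∀ x, HasDerivAt (fun x => Real.sinh (r * x) ^ 2)
      (2 * (Real.sinh (r * x) * (r * Real.cosh (r * x)))) x := by
    intro x
    refine ((scalarK_sinh r x).pow 2).congr_deriv ?_
    push_cast
    ring
  have hlim : Tendsto (fun x => h x / Real.sinh (r * x) ^ 2) (𝓝[>] 0) (𝓝 (p1 0 / (r * r))) := by
    refine HasDerivAt.lhopital_zero_nhdsGT (f' := fun x => 2 * p x)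
      (g' := fun x => 2 * (Real.sinh (r * x) * (r * Real.cosh (r * x)))) ?_ ?_ ?_ ?_ ?_ ?_
    · exact Eventually.of_forall fun x => hh x
    · exact Eventually.of_forall fun x => hsq x
    · filter_upwards [self_mem_nhdsWithin] with x hx
      have h1 := hS x hx
      have h2 := Real.cosh_pos (r * x)
      positivity
    · have h1 : Tendsto h (𝓝 0) (𝓝 (h 0)) := (hh 0).continuousAt
      rw [hh0] at h1
      exact h1.mono_left nhdsWithin_le_nhds
    · have h1 : Tendsto (fun x => Real.sinh (r * x) ^ 2) (𝓝 0) (𝓝 (Real.sinh (r * 0) ^ 2)) :=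
        (hsq 0).continuousAt
      rw [mul_zero, Real.sinh_zero, zero_pow two_ne_zero] at h1
      exact h1.mono_left nhdsWithin_le_nhds
    · have h1 := hpr.div (hsr.mul hcr) (mul_pos hr0 hr0).ne'
      refine h1.congr' ?_
      filter_upwards [self_mem_nhdsWithin] with x hx
      have hx0 : (x : ℝ) ≠ 0 := ne_of_gt hx
      have h2 := (hS x hx).ne'
      have h3 := (Real.cosh_pos (r * x)).ne'
      simp only [Pi.div_apply]
      field_simp
  -- monotonicity
  have hF : ∀ x, 0 < x → HasDerivAt (fun x => h x / Real.sinh (r * x) ^ 2)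
      ((2 * p x * Real.sinh (r * x) ^ 2 -
        h x * (2 * (Real.sinh (r * x) * (r * Real.cosh (r * x))))) /
        (Real.sinh (r * x) ^ 2) ^ 2) x := fun x hx =>
    (hh x).div (hsq x) (pow_pos (hS x hx) 2).ne'
  have hmono : MonotoneOn (fun x => h x / Real.sinh (r * x) ^ 2) (Set.Ioi 0) := by
    refine monotoneOn_of_deriv_nonneg (convex_Ioi 0)
      (fun x hx => (hF x hx).continuousAt.continuousWithinAt) ?_ ?_
    · intro x hx
      rw [interior_Ioi] at hx
      exact (hF x hx).differentiableAt.differentiableWithinAt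
    · intro x hx
      rw [interior_Ioi] at hx
      rw [(hF x hx).deriv]
      refine div_nonneg ?_ (sq_nonneg _)
      have h1 := scalar_coth r hr h p k p1 hh hp hk hh0 hpos hkpos hcs x (le_of_lt hx)
      have h2 := hS x hx
      have h3 := mul_le_mul_of_nonneg_right h1 h2.le
      nlinarith
  have hev : ∀ᶠ x in 𝓝[>] (0 : ℝ), h x / Real.sinh (r * x) ^ 2 ≤ h t / Real.sinh (r * t) ^ 2 := by
    have h1 : Set.Ioc (0 : ℝ) t ∈ 𝓝[>] (0 : ℝ) := Ioc_mem_nhdsGT ht0
    filter_upwards [h1] with x hx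
    exact hmono hx.1 ht0 hx.2
  have h3 := le_of_tendsto hlim hev
  rw [div_le_div_iff₀ (mul_pos hr0 hr0) (pow_pos (hS t ht0) 2)] at h3
  nlinarith

end P219G
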