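import Vale.Agent.Lib.P219.K.Geo.Sec
import Vale.Agent.Lib.P219.K.Geo.ScalarK
import Vale.Agent.Lib.P219.K.Geo.QMap

/-!
# P219, curvature `≤ -1`: Rauch and Hessian comparison

`r = √(g x v v)`, `b ⊥ v`.  Along `γ(t) = (Ψ t (x,v)).1` the field `J = Jf Ψ (x,v) (0,b)` is orthogonal to
`γ'`: `g(J, γ')' = g(DJ, γ')` and `g(DJ, γ')' = -g(R(J,γ')γ', γ') = 0`, or from `Dex_gauss` and `Jf_eq`:
`g(J(t), γ'(t)) = t g x b v = 0`.  The scalar data `h = g(J,J)`, `p = g(DJ,J)`, `k = g(DJ,DJ)`,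
`p1 = k - g(R(J,γ')γ', J) ≥ k + r² h` by `curv_le` and `flow_speed`; `p1 0 = g x b b`
(`jacobi_data`, Geo/JacB, is the model).  Apply `scalar_coth`, `scalar_sinh` at `t = 1`.
-/

open scoped ContDiff
open Vale.Agent.Lib.P219 (Ev)

namespace P219G

variable {n : ℕ} {g : Ev n → Ev n →L[ℝ] Ev n →L[ℝ] ℝ}
  {Γ : Ev n → Ev n →L[ℝ] Ev n →L[ℝ] Ev n} {Ψ : ℝ → Ev n × Ev n → Ev n × Ev n}

private theorem metric_nonneg' (hg : IsMetric g) (p u : Ev n) : 0 ≤ g p u u := by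
  rcases eq_or_ne u 0 with rfl | hu
  · simp
  · exact (hg.pos p u hu).le

private theorem Jz (h : IsFlow (spray Γ) Ψ) (z : Ev n × Ev n) (b : Ev n) :
    Jf Ψ z (0, b) 0 = 0 := by
  have h0 : Ψ 0 = id := by
    funext z
    exact h.zero z
  unfold Jf
  rw [h0, fderiv_id]
  simp

private theorem Jd (hΓ : IsLeviCivita g Γ) (h : IsFlow (spray Γ) Ψ)
    (z ζ : Ev n × Ev n) (t : ℝ) :
    HasDerivAt (Jf Ψ z ζ) (DJf Γ Ψ z ζ t - Γ (Ψ t z).1 (Ψ t z).2 (Jf Ψ z ζ t)) t := by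
  have h1 := hasDerivAt_Jf hΓ h z ζ t
  have h2 : DJf Γ Ψ z ζ t - Γ (Ψ t z).1 (Ψ t z).2 (Jf Ψ z ζ t) = (fderiv ℝ (Ψ t) z ζ).2 := by
    unfold DJf
    abel
  rw [h2]
  exact h1

private theorem J_orth (hg : IsMetric g) (hΓ : IsLeviCivita g Γ)
    (h : IsFlow (spray Γ) Ψ) (x v b : Ev n) (hb : g x v b = 0) (t : ℝ) :
    g (Ψ t (x, v)).1 (Jf Ψ (x, v) (0, b) t) (Ψ t (x, v)).2 = 0 := by
  rcases eq_or_ne t 0 with rfl | ht
  · rw [Jz h]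
    simp
  · have h1 := Dex_gauss hg hΓ h x (t • v) b
    have h2 : Ψ 1 (x, t • v) = ((Ψ t (x, v)).1, t • (Ψ t (x, v)).2) := by
      rw [flow_smul hΓ.smooth h, mul_one]
    have h3 : ex Ψ x (t • v) = (Ψ t (x, v)).1 := by
      unfold ex
      rw [h2]
    have h4 : ve Ψ x (t • v) = t • (Ψ t (x, v)).2 := by
      unfold ve
      rw [h2]
    rw [h3, h4, map_smul, smul_apply, smul_eq_mul, map_smul, smul_apply, smul_eq_mul, hb,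
      mul_zero] at h1
    have h5 := (mul_eq_zero.1 h1).resolve_left ht
    rw [Jf_eq hΓ h, map_smul, smul_apply, smul_eq_mul, hg.symm, h5, mul_zero]

/-- the scalar data of the Jacobi field, curvature at most `-1` -/
private theorem jacobi_data_K (hg : IsMetric g) (hΓ : IsLeviCivita g Γ) (hK : IsSecLe g Γ)
    (h : IsFlow (spray Γ) Ψ) (x v b : Ev n) (hb : g x v b = 0) :
    ∃ p1 : ℝ → ℝ, p1 0 = g x b b ∧
    (∀ t, HasDerivAt (fun s => g (Ψ s (x, v)).1 (Jf Ψ (x, v) (0, b) s) (Jf Ψ (x, v) (0, b) s))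
      (2 * g (Ψ t (x, v)).1 (DJf Γ Ψ (x, v) (0, b) t) (Jf Ψ (x, v) (0, b) t)) t) ∧
    (∀ t, HasDerivAt (fun s => g (Ψ s (x, v)).1 (DJf Γ Ψ (x, v) (0, b) s)
      (Jf Ψ (x, v) (0, b) s)) (p1 t) t) ∧
    (∀ t, g (Ψ t (x, v)).1 (DJf Γ Ψ (x, v) (0, b) t) (DJf Γ Ψ (x, v) (0, b) t)
      + √(g x v v) ^ 2 * g (Ψ t (x, v)).1 (Jf Ψ (x, v) (0, b) t) (Jf Ψ (x, v) (0, b) t)
        ≤ p1 t) := by
  set z : Ev n × Ev n := (x, v) with hz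
  refine ⟨fun t => g (Ψ t z).1 (DJf Γ Ψ z (0, b) t) (DJf Γ Ψ z (0, b) t)
    - g (Ψ t z).1 (curvatureTensor Γ (Ψ t z).1 (Jf Ψ z (0, b) t) (Ψ t z).2 (Ψ t z).2)
      (Jf Ψ z (0, b) t), ?_, ?_, ?_, ?_⟩
  · have h1 : DJf Γ Ψ z (0, b) 0 = b := DJf_zero hΓ h x v b
    have h2 : Jf Ψ z (0, b) 0 = 0 := Jz h z b
    simp only [h1, h2, h.zero]
    simp [hz]
  · intro t
    have h1 := hasDerivAt_inner hg hΓ h z (Jf Ψ z (0, b)) (Jf Ψ z (0, b)) _ _ t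
      (Jd hΓ h z (0, b) t) (Jd hΓ h z (0, b) t)
    convert h1 using 1
    rw [hg.symm (Ψ t z).1 (Jf Ψ z (0, b) t) (DJf Γ Ψ z (0, b) t)]
    ring
  · intro t
    have h1 := hasDerivAt_inner hg hΓ h z (DJf Γ Ψ z (0, b)) (Jf Ψ z (0, b)) _ _ t
      (hasDerivAt_DJf hΓ h z (0, b) t) (Jd hΓ h z (0, b) t)
    convert h1 using 1
    rw [map_neg, neg_apply]
    ring
  · intro t
    have h1 := curv_le hg hΓ hK (Ψ t z).1 (Jf Ψ z (0, b) t) (Ψ t z).2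
    have h2 : g (Ψ t z).1 (Jf Ψ z (0, b) t) (Ψ t z).2 = 0 := J_orth hg hΓ h x v b hb t
    have h3 : g (Ψ t z).1 (Ψ t z).2 (Ψ t z).2 = g x v v := flow_speed hg hΓ h t z
    have h4 : √(g x v v) ^ 2 = g x v v := Real.sq_sqrt (metric_nonneg' hg x v)
    rw [h2, h3] at h1
    rw [h4]
    have h5 : g x v v * g (Ψ t z).1 (Jf Ψ z (0, b) t) (Jf Ψ z (0, b) t)
        = g (Ψ t z).1 (Jf Ψ z (0, b) t) (Jf Ψ z (0, b) t) * g x v v := mul_comm _ _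
    rw [h5]
    linarith

theorem Dex_sinh (hg : IsMetric g) (hΓ : IsLeviCivita g Γ) (hK : IsSecLe g Γ)
    (h : IsFlow (spray Γ) Ψ) (x v b : Ev n) (hb : g x v b = 0) :
    Real.sinh (√(g x v v)) ^ 2 * g x b b
      ≤ g x v v * g (ex Ψ x v) (Dex Ψ x v b) (Dex Ψ x v b) := by
  obtain ⟨p1, h0, h1, h2, h3⟩ := jacobi_data_K hg hΓ hK h x v b hb
  have h4 := scalar_sinh (√(g x v v)) (Real.sqrt_nonneg _) _ _ _ p1 h1 h2 h3 (by simp [Jz h])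
    (fun t => metric_nonneg' hg _ _) (fun t => metric_nonneg' hg _ _) (fun t => by
      have := metric_cs hg (Ψ t (x, v)).1 (DJf Γ Ψ (x, v) (0, b) t) (Jf Ψ (x, v) (0, b) t)
      linarith) 1 zero_le_one
  rw [h0, Jf_eq hΓ h, one_smul, one_smul, Real.sq_sqrt (metric_nonneg' hg x v), mul_one] at h4
  exact h4

theorem Qf_coth (hg : IsMetric g) (hΓ : IsLeviCivita g Γ) (hK : IsSecLe g Γ)
    (h : IsFlow (spray Γ) Ψ) (x v b : Ev n) (hb : g x v b = 0) :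
    √(g x v v) * Real.cosh (√(g x v v)) * g (ex Ψ x v) (Dex Ψ x v b) (Dex Ψ x v b)
      ≤ Real.sinh (√(g x v v)) * g (ex Ψ x v) (Qf Γ Ψ x v b) (Dex Ψ x v b) := by
  obtain ⟨p1, h0, h1, h2, h3⟩ := jacobi_data_K hg hΓ hK h x v b hb
  have h4 := scalar_coth (√(g x v v)) (Real.sqrt_nonneg _) _ _ _ p1 h1 h2 h3 (by simp [Jz h])
    (fun t => metric_nonneg' hg _ _) (fun t => metric_nonneg' hg _ _) (fun t => by
      have := metric_cs hg (Ψ t (x, v)).1 (DJf Γ Ψ (x, v) (0, b) t) (Jf Ψ (x, v) (0, b) t)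
      linarith) 1 zero_le_one
  rw [Jf_eq hΓ h, one_smul, one_smul, mul_one] at h4
  rw [Qf_apply]
  unfold ex
  linarith

end P219G
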