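import Vale.Agent.Lib.P219.K.DefsK
import Vale.Agent.Lib.P219.Geo.Bridge
import Vale.Agent.Lib.P219.K.Geo.Rauch
import Vale.Agent.Lib.P219.K.Geo.Index

/-!
# P219, curvature `≤ -1`: from the metric to `HDataK`

With `H` from `exists_HData_flow` (`H.fl`, `H.P` in terms of `Ψ`, `H.L`, `H.Li`), put
`Q x w = (Li y) ∘ (Qf x (L x w)) ∘ (L x)`, `y = ex x (L x w)`, and `O = (Li y) ∘ T 1 ∘ (L x)` (a linear
isometry; bijective by finite dimension).  `g x v w = ⟨Li v, Li w⟩` translates everything: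
`√(g x (L x w) (L x w)) = ‖w‖`.
-/

open scoped ContDiff
open Vale.Agent.Lib.P219 (Ev HData HDataK)

namespace P219G

variable {n : ℕ}

private theorem asmK_ex_smooth {Γ : Ev n → Ev n →L[ℝ] Ev n →L[ℝ] Ev n}
    {Ψ : ℝ → Ev n × Ev n → Ev n × Ev n} (hΓ : ContDiff ℝ ∞ Γ) (h : IsFlow (spray Γ) Ψ) :
    ContDiff ℝ ∞ (fun p : Ev n × Ev n => ex Ψ p.1 p.2) := by
  have h1 := IsFlow.contDiff (spray_contDiff hΓ) h
  have h2 : ContDiff ℝ ∞ (fun p : Ev n × Ev n => Ψ 1 (p.1, p.2)) :=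
    h1.comp (contDiff_const.prodMk (contDiff_fst.prodMk contDiff_snd))
  exact h2.fst

theorem exists_HDataK_smooth (g : Ev n → Ev n →L[ℝ] Ev n →L[ℝ] ℝ) (hg : IsMetric g)
    (Γ : Ev n → Ev n →L[ℝ] Ev n →L[ℝ] Ev n) (hΓ : IsLeviCivita g Γ) (hc : IsComplete Γ)
    (hK : IsSecLe g Γ) :
    ∃ H : HDataK n, (∀ x v w, g x v w = inner ℝ (H.Li x v) (H.Li x w)) ∧
      ∀ x, ContDiff ℝ ∞ (H.Ex x) := by
  obtain ⟨Ψ, h⟩ := exists_flow hc
  obtain ⟨H, h3, hfl, hP⟩ := exists_HData_flow g hg Γ hΓ hK.nonpos h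
  have hLL : ∀ x u w, g x (H.L x u) (H.L x w) = inner ℝ u w := by
    intro x u w
    rw [h3, H.Li_L, H.Li_L]
  have hii : ∀ x u w, inner ℝ (H.Li x u) (H.Li x w) = g x u w := fun x u w => (h3 x u w).symm
  have hsq : ∀ x w, √(g x (H.L x w) (H.L x w)) = ‖w‖ := by
    intro x w
    rw [hLL, real_inner_self_eq_norm_sq, Real.sqrt_sq (norm_nonneg _)]
  have hf1 : ∀ x w, (H.fl 1 (x, w)).1 = ex Ψ x (H.L x w) := fun x w => by
    rw [hfl]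
    rfl
  have hf2 : ∀ x w, (H.fl 1 (x, w)).2 = H.Li (ex Ψ x (H.L x w)) (ve Ψ x (H.L x w)) := fun x w => by
    rw [hfl]
    rfl
  have hPa : ∀ x w ξ, H.P x w ξ =
      H.Li (ex Ψ x (H.L x w)) (Dex Ψ x (H.L x w) (H.L x ξ)) := fun x w ξ => by
    rw [hP]
    rfl
  have hr1 : ∀ x w, H.L (ex Ψ x (H.L x w)) (-(H.Li (ex Ψ x (H.L x w)) (ve Ψ x (H.L x w))))
      = -(ve Ψ x (H.L x w)) := by
    intro x w
    rw [map_neg, H.L_Li]
  have hr2 : ∀ x w, ex Ψ (ex Ψ x (H.L x w)) (-(ve Ψ x (H.L x w))) = x :=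
    fun x w => congrArg Prod.fst (flow_back hΓ.smooth h x _)
  have hPr : ∀ x w ξ, H.P (H.fl 1 (x, w)).1 (-(H.fl 1 (x, w)).2) ξ =
      H.Li x (Dex Ψ (ex Ψ x (H.L x w)) (-(ve Ψ x (H.L x w))) (H.L (ex Ψ x (H.L x w)) ξ)) := by
    intro x w ξ
    rw [hPa, hf1, hf2, hr1, hr2]
  have hQr : ∀ x w ξ,
      H.Li (ex Ψ (H.fl 1 (x, w)).1 (H.L (H.fl 1 (x, w)).1 (-(H.fl 1 (x, w)).2)))
        (Qf Γ Ψ (H.fl 1 (x, w)).1 (H.L (H.fl 1 (x, w)).1 (-(H.fl 1 (x, w)).2))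
          (H.L (H.fl 1 (x, w)).1 ξ)) =
      H.Li x (Qf Γ Ψ (ex Ψ x (H.L x w)) (-(ve Ψ x (H.L x w))) (H.L (ex Ψ x (H.L x w)) ξ)) := by
    intro x w ξ
    rw [hf1, hf2, hr1, hr2]
  refine ⟨{
    toHData := H
    Q := fun x w => ((H.Li (ex Ψ x (H.L x w))).comp (Qf Γ Ψ x (H.L x w))).comp (H.L x)
    Q_cont := ?_
    Q_self := ?_
    Q_symm := ?_
    P_deriv := ?_
    P_adj := ?_
    P_sinh := ?_
    Q_coth := ?_
    index := ?_ }, h3, ?_⟩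
  · have hv : Continuous fun p : Ev n × Ev n => H.L p.1 p.2 :=
      (H.L_cont.comp continuous_fst).clm_apply continuous_snd
    have hex : Continuous fun p : Ev n × Ev n => ex Ψ p.1 (H.L p.1 p.2) :=
      (asmK_ex_smooth hΓ.smooth h).continuous.comp (continuous_fst.prodMk hv)
    have hD : Continuous fun p : Ev n × Ev n => Qf Γ Ψ p.1 (H.L p.1 p.2) :=
      (Qf_cont hΓ h).comp (continuous_fst.prodMk hv)
    exact ((H.Li_cont.comp hex).clm_comp hD).clm_comp (H.L_cont.comp continuous_fst)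
  · intro x w
    change H.Li (ex Ψ x (H.L x w)) (Qf Γ Ψ x (H.L x w) (H.L x w)) = (H.fl 1 (x, w)).2
    rw [Qf_self hΓ h, hf2]
  · intro x w ξ ζ
    change inner ℝ (H.Li (ex Ψ x (H.L x w)) (Qf Γ Ψ x (H.L x w) (H.L x ξ))) (H.P x w ζ) =
      inner ℝ (H.P x w ξ) (H.Li (ex Ψ x (H.L x w)) (Qf Γ Ψ x (H.L x w) (H.L x ζ)))
    rw [hPa, hPa, hii, hii]
    exact Qf_symm hg hΓ hK.nonpos h x _ _ _
  · intro x w ξ ζ s hs
    change HasDerivAt (fun s => inner ℝ (H.P x (s • w) ξ) (H.P x (s • w) ζ))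
      ((2 / s) * (inner ℝ (H.Li (ex Ψ x (H.L x (s • w))) (Qf Γ Ψ x (H.L x (s • w)) (H.L x ξ)))
        (H.P x (s • w) ζ) - inner ℝ (H.P x (s • w) ξ) (H.P x (s • w) ζ))) s
    simp only [hPa, hii, map_smul]
    exact Dex_deriv hg hΓ hK.nonpos h x _ _ _ s hs
  · intro x w ξ ζ
    rw [hPr, hPa]
    have e1 : inner ℝ (H.Li (ex Ψ x (H.L x w)) (Dex Ψ x (H.L x w) (H.L x ξ))) ζ =
        g (ex Ψ x (H.L x w)) (Dex Ψ x (H.L x w) (H.L x ξ)) (H.L (ex Ψ x (H.L x w)) ζ) := by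
      rw [h3, H.Li_L]
    rw [e1, Dex_adjoint hg hΓ hK.nonpos h, h3, H.Li_L]
  · intro x w ξ hξ
    have hb : g x (H.L x w) (H.L x ξ) = 0 := by rw [hLL, hξ]
    have e := Dex_sinh hg hΓ hK h x (H.L x w) (H.L x ξ) hb
    rw [hsq, hLL, hLL, real_inner_self_eq_norm_sq, real_inner_self_eq_norm_sq, h3, ← hPa,
      real_inner_self_eq_norm_sq, ← mul_pow, ← mul_pow] at e
    exact le_of_sq_le_sq e (mul_nonneg (norm_nonneg _) (norm_nonneg _))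
  · intro x w ξ hξ
    have hb : g x (H.L x w) (H.L x ξ) = 0 := by rw [hLL, hξ]
    have e := Qf_coth hg hΓ hK h x (H.L x w) (H.L x ξ) hb
    rw [hsq, h3, ← hPa, real_inner_self_eq_norm_sq, h3, ← hPa] at e
    exact e
  · intro x w
    obtain ⟨T, hT0, hT1, hT2, hT3⟩ := exists_parallel hg hΓ h (x, H.L x w)
    let f : Ev n →ₗᵢ[ℝ] Ev n :=
      { toLinearMap := (((H.Li (ex Ψ x (H.L x w))).comp (T 1)).comp (H.L x) :
          Ev n →L[ℝ] Ev n).toLinearMap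
        norm_map' := by
          intro u
          have e : ‖H.Li (ex Ψ x (H.L x w)) (T 1 (H.L x u))‖ ^ 2 = ‖u‖ ^ 2 := by
            rw [← real_inner_self_eq_norm_sq, hii, ← real_inner_self_eq_norm_sq, ← hLL x u u]
            exact hT2 1 (H.L x u) (H.L x u)
          exact (sq_eq_sq₀ (norm_nonneg _) (norm_nonneg _)).1 e }
    have hf : ∀ u, f u = H.Li (ex Ψ x (H.L x w)) (T 1 (H.L x u)) := fun _ => rfl
    refine ⟨f.toLinearIsometryEquiv rfl, ?_, ?_⟩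
    · rw [hf2]
      change f w = _
      rw [hf]
      congr 1
      exact hT3 1
    · intro ξ ξ' hξ hξ'
      have hb : g x (H.L x w) (H.L x ξ) = 0 := by rw [hLL, hξ]
      have hb' : g (ex Ψ x (H.L x w)) (ve Ψ x (H.L x w)) (H.L (ex Ψ x (H.L x w)) ξ') = 0 := by
        rw [hf2] at hξ'
        rw [h3, H.Li_L]
        exact hξ'
      have e := index_ineq hg hΓ hK h x (H.L x w) (H.L x ξ) (H.L (ex Ψ x (H.L x w)) ξ') hb hb'
        T hT0 hT1 hT2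
      change ‖w‖ * (Real.cosh ‖w‖ * (‖H.P x w ξ‖ ^ 2
          + ‖H.P (H.fl 1 (x, w)).1 (-(H.fl 1 (x, w)).2) ξ'‖ ^ 2)
        - 2 * inner ℝ (f (H.P (H.fl 1 (x, w)).1 (-(H.fl 1 (x, w)).2) ξ')) (H.P x w ξ))
        ≤ Real.sinh ‖w‖ * (inner ℝ (H.Li (ex Ψ x (H.L x w)) (Qf Γ Ψ x (H.L x w) (H.L x ξ)))
            (H.P x w ξ)
          + inner ℝ (H.Li (ex Ψ (H.fl 1 (x, w)).1 (H.L (H.fl 1 (x, w)).1 (-(H.fl 1 (x, w)).2)))
            (Qf Γ Ψ (H.fl 1 (x, w)).1 (H.L (H.fl 1 (x, w)).1 (-(H.fl 1 (x, w)).2))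
              (H.L (H.fl 1 (x, w)).1 ξ')))
              (H.P (H.fl 1 (x, w)).1 (-(H.fl 1 (x, w)).2) ξ')
          - 2 * inner ℝ ξ (H.P (H.fl 1 (x, w)).1 (-(H.fl 1 (x, w)).2) ξ'))
      rw [hQr, hPr, hf, H.L_Li, ← real_inner_self_eq_norm_sq, ← real_inner_self_eq_norm_sq,
        hPa, hii, hii, hii, hii, hii]
      have e2 : inner ℝ ξ (H.Li x (Dex Ψ (ex Ψ x (H.L x w)) (-(ve Ψ x (H.L x w)))
          (H.L (ex Ψ x (H.L x w)) ξ'))) = g x (H.L x ξ) (Dex Ψ (ex Ψ x (H.L x w))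
            (-(ve Ψ x (H.L x w))) (H.L (ex Ψ x (H.L x w)) ξ')) := by
        rw [h3, H.Li_L]
      rw [e2, ← hsq x w]
      exact e
  · intro x
    have e1 : ContDiff ℝ ∞ (fun w : Ev n => ex Ψ x w) :=
      (asmK_ex_smooth hΓ.smooth h).comp (contDiff_const.prodMk contDiff_id)
    have e2 : H.Ex x = fun w => ex Ψ x (H.L x w) := by
      funext w
      exact hf1 x w
    change ContDiff ℝ ∞ (H.Ex x)
    rw [e2]
    exact e1.comp (H.L x).contDiff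

theorem exists_HDataK (g : Ev n → Ev n →L[ℝ] Ev n →L[ℝ] ℝ) (hg : IsMetric g)
    (Γ : Ev n → Ev n →L[ℝ] Ev n →L[ℝ] Ev n) (hΓ : IsLeviCivita g Γ) (hc : IsComplete Γ)
    (hK : IsSecLe g Γ) :
    ∃ H : HDataK n, ∀ x v w, g x v w = inner ℝ (H.Li x v) (H.Li x w) := by
  obtain ⟨H, h, -⟩ := exists_HDataK_smooth g hg Γ hΓ hc hK
  exact ⟨H, h⟩

end P219G
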